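import Mathlib

/-! The three-interval case of the concavity form: explicit verification. -/

namespace Vale.Agent.P227

/-- Edge weight of the quadratic form, in the excesses `r, s, t`. -/
def base3w (h k : ℝ) (r s t : ℝ) : ℝ := 2 * (h * k) * (r * t + s * t - r * s)

theorem base3_det (r s t : ℝ) :
    base3w ((s + t) / 2) ((r + t) / 2) r s t * base3w ((s + t) / 2) ((r + s) / 2) r t s +
      base3w ((s + t) / 2) ((r + t) / 2) r s t * base3w ((r + t) / 2) ((r + s) / 2) s t r +
      base3w ((s + t) / 2) ((r + s) / 2) r t s * base3w ((r + t) / 2) ((r + s) / 2) s t r =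
    4 * ((s + t) / 2 * ((r + t) / 2) * ((r + s) / 2)) * (r * s * t) * (r * s + r * t + s * t) := by
  simp only [base3w]; ring

theorem base3_key {a b c x y z r s t V : ℝ} (ha : a ≠ 0) (hb : b ≠ 0) (hc : c ≠ 0) (hV : V ≠ 0)
    (hr : r = b + c - a) (hs : s = a + c - b) (ht : t = a + b - c)
    (hVr : V = r * s + r * t + s * t) :
    (4 * (x * y + x * z + y * z) - 2 * (x ^ 2 + y ^ 2 + z ^ 2)) +
        (2 * r * x ^ 2 / a + 2 * s * y ^ 2 / b + 2 * t * z ^ 2 / c) -
        (2 * r * x + 2 * s * y + 2 * t * z) ^ 2 / V =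
      -(base3w a b r s t * (x / a - y / b) ^ 2 + base3w a c r t s * (x / a - z / c) ^ 2 +
        base3w b c s t r * (y / b - z / c) ^ 2) / V := by
  obtain ⟨X, rfl⟩ : ∃ X, x = a * X := ⟨x / a, by field_simp⟩
  obtain ⟨Y, rfl⟩ : ∃ Y, y = b * Y := ⟨y / b, by field_simp⟩
  obtain ⟨Z, rfl⟩ : ∃ Z, z = c * Z := ⟨z / c, by field_simp⟩
  have e : ∀ k w W : ℝ, k ≠ 0 → 2 * w * (k * W) ^ 2 / k = 2 * w * k * W ^ 2 := fun k w W hk => by
    field_simp
  simp only [mul_div_cancel_left₀ _ ha, mul_div_cancel_left₀ _ hb, mul_div_cancel_left₀ _ hc]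
  rw [e a r X ha, e b s Y hb, e c t Z hc, eq_div_iff hV, sub_mul, div_mul_cancel₀ _ hV]
  simp only [base3w]
  subst hVr
  have h1 : a = (s + t) / 2 := by linarith
  have h2 : b = (r + t) / 2 := by linarith
  have h3 : c = (r + s) / 2 := by linarith
  subst h1; subst h2; subst h3
  ring

/-- The form of the hexagon `2ab + 2ac + 2bc - a² - b² - c²` at a point with all three excesses
nonnegative is nonpositive. -/
theorem base3_active {a b c x y z V : ℝ} (ha : 0 < a) (hb : 0 < b) (hc : 0 < c)
    (hA : a ≤ b + c) (hB : b ≤ a + c) (hC : c ≤ a + b)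
    (hV : V = 2 * (a * b + a * c + b * c) - (a ^ 2 + b ^ 2 + c ^ 2)) :
    (4 * (x * y + x * z + y * z) - 2 * (x ^ 2 + y ^ 2 + z ^ 2)) +
        (2 * (b + c - a) * x ^ 2 / a + 2 * (a + c - b) * y ^ 2 / b + 2 * (a + b - c) * z ^ 2 / c) -
        (2 * (b + c - a) * x + 2 * (a + c - b) * y + 2 * (a + b - c) * z) ^ 2 / V ≤ 0 := by
  obtain ⟨r, hr⟩ : ∃ r, r = b + c - a := ⟨_, rfl⟩
  obtain ⟨s, hs⟩ : ∃ s, s = a + c - b := ⟨_, rfl⟩
  obtain ⟨t, ht⟩ : ∃ t, t = a + b - c := ⟨_, rfl⟩
  rw [← hr, ← hs, ← ht]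
  have r0 : 0 ≤ r := by linarith
  have s0 : 0 ≤ s := by linarith
  have t0 : 0 ≤ t := by linarith
  have hVr : V = r * s + r * t + s * t := by rw [hV, hr, hs, ht]; ring
  have hrt : 0 < r + t := by linarith
  have hV0 : 0 < V := by
    have h1 : 0 < r + s := by linarith
    have h2 : 0 < s + t := by linarith
    rw [hVr]
    nlinarith [mul_pos (mul_pos h1 h2) hrt, mul_nonneg r0 s0, mul_nonneg r0 t0, mul_nonneg s0 t0]
  rw [base3_key ha.ne' hb.ne' hc.ne' hV0.ne' hr hs ht hVr, neg_div, neg_nonpos]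
  have hp : 0 < base3w a b r s t + base3w b c s t r := by
    have e : base3w a b r s t + base3w b c s t r =
        2 * b * ((a + c) * (r * t) + s * (r - t) ^ 2 / 2) := by
      simp only [base3w]; rw [hr, hs, ht]; ring
    rw [e]
    refine mul_pos (by linarith) ?_
    rcases eq_or_lt_of_le (mul_nonneg r0 t0) with h | h
    · rw [← h]
      have hne : 0 < s * (r - t) ^ 2 := by
        rcases mul_eq_zero.1 h.symm with hz | hz
        · exact mul_pos (by linarith) (pow_two_pos_of_ne_zero (by linarith))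
        · exact mul_pos (by linarith) (pow_two_pos_of_ne_zero (by linarith))
      linarith
    · have := mul_pos (add_pos ha hc) h
      have := mul_nonneg s0 (sq_nonneg (r - t))
      linarith
  have hd : 0 ≤ base3w a b r s t * base3w a c r t s + base3w a b r s t * base3w b c s t r +
      base3w a c r t s * base3w b c s t r := by
    have h1 : a = (s + t) / 2 := by linarith
    have h2 : b = (r + t) / 2 := by linarith
    have h3 : c = (r + s) / 2 := by linarith
    rw [h1, h2, h3, base3_det]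
    positivity
  generalize base3w a b r s t = A at hp hd ⊢
  generalize base3w a c r t s = B at hp hd ⊢
  generalize base3w b c s t r = C at hp hd ⊢
  generalize hu : x / a - y / b = u
  generalize hv : x / a - z / c = v
  rw [show y / b - z / c = v - u by rw [← hu, ← hv]; ring]
  refine div_nonneg (nonneg_of_mul_nonneg_right ?_ hp) hV0.le
  nlinarith [sq_nonneg ((A + C) * u - C * v), mul_nonneg hd (sq_nonneg v)]

/-- The same form where one interval is at least as long as the other two together. -/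
theorem base3_inactive {b c y z : ℝ} (hb : 0 < b) (hc : 0 < c) :
    8 * (y * z) + (4 * c * y ^ 2 / b + 4 * b * z ^ 2 / c) -
      (4 * c * y + 4 * b * z) ^ 2 / (4 * b * c) = 0 := by
  field_simp
  ring

end Vale.Agent.P227
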