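import Mathlib

/-!
# P227: two boxes with the same fan of central sections

If no signed sum of `a` and of `b` have strictly opposite signs, every linear functional on the
hyperplane `∑ i, y i = 0` has one lift that is optimal for both boxes; hence the logarithmic
combination of the two sections is the section of the geometric mean box.
-/

namespace Vale.Agent.P227

variable {ι : Type*} [Fintype ι]

/-- The signed sum of the weights `a` for the sign vector `σ`. -/
def sgnSum (σ : ι → Bool) (a : ι → ℝ) : ℝ := ∑ i, if σ i then a i else -a i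

/-- No signed sums of `a` and `b` have strictly opposite signs. -/
def SameChamber (a b : ι → ℝ) : Prop := ∀ σ : ι → Bool, 0 ≤ sgnSum σ a * sgnSum σ b

lemma sgnSum_add (σ : ι → Bool) (a b : ι → ℝ) :
    sgnSum σ (fun i => a i + b i) = sgnSum σ a + sgnSum σ b := by
  rw [sgnSum, sgnSum, sgnSum, ← Finset.sum_add_distrib]
  exact Finset.sum_congr rfl fun i _ => by split <;> ring

lemma exists_weighted_median [Nonempty ι] (w : ι → ℝ) (hw : ∀ i, 0 ≤ w i) (c : ι → ℝ) :
    ∃ t : ℝ, 0 ≤ sgnSum (fun i => decide (0 ≤ c i + t)) w ∧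
      sgnSum (fun i => decide (0 < c i + t)) w ≤ 0 := by
  classical
  set T := Finset.univ.filter fun j => 0 ≤ sgnSum (fun i => decide (0 ≤ c i + -c j)) w with hT
  obtain ⟨m, -, hm⟩ := Finset.exists_max_image Finset.univ (fun i => -c i) Finset.univ_nonempty
  have hne : T.Nonempty := by
    refine ⟨m, Finset.mem_filter.2 ⟨Finset.mem_univ _, Finset.sum_nonneg fun i _ => ?_⟩⟩
    rw [if_pos (by simpa using hm i (Finset.mem_univ _))]
    exact hw i
  obtain ⟨j, hj, hjmin⟩ := Finset.exists_min_image T (fun i => -c i) hne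
  refine ⟨-c j, (Finset.mem_filter.1 hj).2, ?_⟩
  by_cases hlo : (Finset.univ.filter fun i => -c i < -c j).Nonempty
  · obtain ⟨k, hk, hkmax⟩ := Finset.exists_max_image _ (fun i => -c i) hlo
    have hkj : -c k < -c j := (Finset.mem_filter.1 hk).2
    have e : (fun i => decide (0 < c i + -c j)) = fun i => decide (0 ≤ c i + -c k) := by
      funext i
      refine decide_eq_decide.2 ⟨fun h => ?_, fun h => by linarith⟩
      have h1 : -c i ≤ -c k := hkmax i (Finset.mem_filter.2 ⟨Finset.mem_univ _, by linarith⟩)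
      linarith
    rw [e]
    by_contra hpos
    have := hjmin k (Finset.mem_filter.2 ⟨Finset.mem_univ _, (not_le.1 hpos).le⟩)
    linarith
  · refine Finset.sum_nonpos fun i _ => ?_
    have hi : ¬ (0 < c i + -c j) := fun h => hlo ⟨i, Finset.mem_filter.2
      ⟨Finset.mem_univ _, by linarith⟩⟩
    rw [if_neg (by simpa using hi)]
    linarith [hw i]

/-- A primal witness: the lift `c + t` is optimal for the box `a` when `t` is a weighted median. -/
lemma exists_witness (a : ι → ℝ) (ha : ∀ i, 0 < a i) (c : ι → ℝ) (t : ℝ)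
    (h1 : 0 ≤ sgnSum (fun i => decide (0 ≤ c i + t)) a)
    (h2 : sgnSum (fun i => decide (0 < c i + t)) a ≤ 0) :
    ∃ y : ι → ℝ, ∑ i, y i = 0 ∧ (∀ i, |y i| ≤ a i) ∧ ∑ i, c i * y i = ∑ i, |c i + t| * a i := by
  classical
  set P := fun θ : ℝ => fun i => if 0 < c i + t then a i else if c i + t < 0 then -a i else θ * a i
  have hP1 : ∑ i, P 1 i = sgnSum (fun i => decide (0 ≤ c i + t)) a :=
    Finset.sum_congr rfl fun i _ => by
      simp only [P, decide_eq_true_eq, one_mul]
      split_ifs <;> linarith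
  have hP2 : ∑ i, P (-1) i = sgnSum (fun i => decide (0 < c i + t)) a :=
    Finset.sum_congr rfl fun i _ => by
      simp only [P, decide_eq_true_eq, neg_mul, one_mul]
      split_ifs <;> linarith
  obtain ⟨θ, hθ, hsum⟩ : ∃ θ ∈ Set.Icc (-1 : ℝ) 1, ∑ i, P θ i = 0 := by
    refine intermediate_value_Icc (f := fun θ => ∑ i, P θ i) (by norm_num) ?_ ⟨by linarith, by linarith⟩
    refine (continuous_finsetSum _ fun i _ => ?_).continuousOn
    simp only [P]
    split_ifs
    · exact continuous_const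
    · exact continuous_const
    · exact continuous_id.mul continuous_const
  refine ⟨P θ, hsum, fun i => ?_, ?_⟩
  · simp only [P]
    split_ifs
    · rw [abs_of_pos (ha i)]
    · rw [abs_neg, abs_of_pos (ha i)]
    · rw [abs_mul, abs_of_pos (ha i)]
      exact mul_le_of_le_one_left (ha i).le (abs_le.2 hθ)
  · have e : ∀ i, (c i + t) * P θ i = |c i + t| * a i := by
      intro i
      simp only [P]
      split_ifs with h h'
      · rw [abs_of_pos h]
      · rw [abs_of_neg h']; ring
      · rw [le_antisymm (not_lt.1 h) (not_lt.1 h')]; simp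
    calc ∑ i, c i * P θ i = ∑ i, ((c i + t) * P θ i - t * P θ i) :=
          Finset.sum_congr rfl fun i _ => by ring
      _ = ∑ i, |c i + t| * a i := by
          rw [Finset.sum_sub_distrib, ← Finset.mul_sum, hsum, mul_zero, sub_zero]
          exact Finset.sum_congr rfl fun i _ => e i

/-- One lift is optimal for both boxes when they lie in the same chamber. -/
theorem exists_common_lift [Nonempty ι] {a b : ι → ℝ} (ha : ∀ i, 0 < a i) (hb : ∀ i, 0 < b i)
    (hab : SameChamber a b) (c : ι → ℝ) :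
    ∃ t : ℝ, (∃ y : ι → ℝ, ∑ i, y i = 0 ∧ (∀ i, |y i| ≤ a i) ∧
        ∑ i, c i * y i = ∑ i, |c i + t| * a i) ∧
      ∃ z : ι → ℝ, ∑ i, z i = 0 ∧ (∀ i, |z i| ≤ b i) ∧
        ∑ i, c i * z i = ∑ i, |c i + t| * b i := by
  obtain ⟨t, h1, h2⟩ := exists_weighted_median (fun i => a i + b i)
    (fun i => (add_pos (ha i) (hb i)).le) c
  rw [sgnSum_add] at h1 h2
  have s1 := hab (fun i => decide (0 ≤ c i + t))
  have s2 := hab (fun i => decide (0 < c i + t))
  refine ⟨t, exists_witness a ha c t ?_ ?_, exists_witness b hb c t ?_ ?_⟩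
  · by_contra h; nlinarith [not_le.1 h]
  · by_contra h; nlinarith [not_le.1 h]
  · by_contra h; nlinarith [not_le.1 h]
  · by_contra h; nlinarith [not_le.1 h]

/-- Weighted Hölder inequality in the form used for geometric mean boxes. -/
lemma sum_mul_geom_le (w a b : ι → ℝ) (hw : ∀ i, 0 ≤ w i) (ha : ∀ i, 0 < a i)
    (hb : ∀ i, 0 < b i) {l : ℝ} (hl0 : 0 ≤ l) (hl1 : l ≤ 1) :
    ∑ i, w i * (a i ^ (1 - l) * b i ^ l) ≤
      (∑ i, w i * a i) ^ (1 - l) * (∑ i, w i * b i) ^ l := by
  set A := ∑ i, w i * a i with hA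
  set B := ∑ i, w i * b i with hB
  rcases (Finset.sum_nonneg fun i _ => mul_nonneg (hw i) (ha i).le : 0 ≤ A).eq_or_lt' with h | h
  · have hz : ∀ i, w i = 0 := fun i => by
      have := (Finset.sum_eq_zero_iff_of_nonneg fun i _ => mul_nonneg (hw i) (ha i).le).1 h i
        (Finset.mem_univ _)
      exact (mul_eq_zero.1 this).resolve_right (ha i).ne'
    rw [Finset.sum_eq_zero fun i _ => by rw [hz i, zero_mul]]
    have hB0 : 0 ≤ B := Finset.sum_nonneg fun i _ => mul_nonneg (hw i) (hb i).le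
    have hA0 : 0 ≤ A := le_of_eq h.symm
    positivity
  · have hBpos : 0 < B := by
      obtain ⟨i, -, hi⟩ := Finset.exists_ne_zero_of_sum_ne_zero h.ne'
      have hwi : 0 < w i := (hw i).lt_of_ne' fun e => hi (by rw [e, zero_mul])
      exact lt_of_lt_of_le (mul_pos hwi (hb i)) (Finset.single_le_sum
        (fun j _ => mul_nonneg (hw j) (hb j).le) (Finset.mem_univ i))
    have key : ∀ i, w i * (a i ^ (1 - l) * b i ^ l) ≤
        A ^ (1 - l) * B ^ l * ((1 - l) * (w i * a i / A) + l * (w i * b i / B)) := by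
      intro i
      have hgm := Real.geom_mean_le_arith_mean2_weighted (by linarith : 0 ≤ 1 - l) hl0
        (div_nonneg (ha i).le h.le) (div_nonneg (hb i).le hBpos.le) (by ring)
      rw [Real.div_rpow (ha i).le h.le, Real.div_rpow (hb i).le hBpos.le, div_mul_div_comm,
        div_le_iff₀ (by positivity)] at hgm
      calc w i * (a i ^ (1 - l) * b i ^ l)
          ≤ w i * (((1 - l) * (a i / A) + l * (b i / B)) * (A ^ (1 - l) * B ^ l)) :=
            mul_le_mul_of_nonneg_left hgm (hw i)
        _ = _ := by ring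
    refine (Finset.sum_le_sum fun i _ => key i).trans (le_of_eq ?_)
    rw [← Finset.mul_sum, Finset.sum_add_distrib, ← Finset.mul_sum, ← Finset.mul_sum,
      ← Finset.sum_div, ← Finset.sum_div, ← hA, ← hB, div_self h.ne', div_self hBpos.ne']
    ring

/-- The geometric mean section satisfies every constraint of the logarithmic combination. -/
theorem log_combination_constraint [Nonempty ι] {a b : ι → ℝ} (ha : ∀ i, 0 < a i)
    (hb : ∀ i, 0 < b i) (hab : SameChamber a b) {l : ℝ} (hl0 : 0 ≤ l) (hl1 : l ≤ 1)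
    (c x : ι → ℝ) (hx0 : ∑ i, x i = 0) (hx : ∀ i, |x i| ≤ a i ^ (1 - l) * b i ^ l) :
    ∃ y z : ι → ℝ, ∑ i, y i = 0 ∧ (∀ i, |y i| ≤ a i) ∧ ∑ i, z i = 0 ∧ (∀ i, |z i| ≤ b i) ∧
      0 ≤ ∑ i, c i * y i ∧ 0 ≤ ∑ i, c i * z i ∧
      ∑ i, c i * x i ≤ (∑ i, c i * y i) ^ (1 - l) * (∑ i, c i * z i) ^ l := by
  obtain ⟨t, ⟨y, hy0, hy, hya⟩, ⟨z, hz0, hz, hzb⟩⟩ := exists_common_lift ha hb hab c
  refine ⟨y, z, hy0, hy, hz0, hz, ?_, ?_, ?_⟩
  · rw [hya]; exact Finset.sum_nonneg fun i _ => mul_nonneg (abs_nonneg _) (ha i).le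
  · rw [hzb]; exact Finset.sum_nonneg fun i _ => mul_nonneg (abs_nonneg _) (hb i).le
  rw [hya, hzb]
  calc ∑ i, c i * x i = ∑ i, (c i + t) * x i := by
        simp only [add_mul, Finset.sum_add_distrib, ← Finset.mul_sum, hx0, mul_zero, add_zero]
    _ ≤ ∑ i, |c i + t| * (a i ^ (1 - l) * b i ^ l) :=
        Finset.sum_le_sum fun i _ => (le_abs_self _).trans <| by
          rw [abs_mul]; exact mul_le_mul_of_nonneg_left (hx i) (abs_nonneg _)
    _ ≤ _ := sum_mul_geom_le _ a b (fun i => abs_nonneg _) ha hb hl0 hl1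

end Vale.Agent.P227
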