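import Mathlib

/-!
# P227: from the Hessian inequality to log-concavity in exponential coordinates

Generic analytic glue, independent of the formula for the section volume:

* `logConcave_of_form`: if a positive function `V` on positive vectors has gradient `G` and
  Hessian `H` (as derivatives along curves) and the form
  `w'Hw + Σ G_k w_k²/h_k - (G·w)²/V` is nonpositive, then `s ↦ log V(e^s)` is concave;
* `logConcave_of_limit`: log-concavity passes from `m+1` variables to `m` by letting the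
  last variable tend to zero;
* `geomMean_mul_le`: the product form of log-concavity;
* `sum_geomMean_le`: the two-term Hölder inequality for weighted geometric means.
-/

namespace Vale.Agent.P227

open Filter Topology Finset

/-- `s ↦ log V(e^s)`. -/
noncomputable def logPull {m : ℕ} (V : (Fin m → ℝ) → ℝ) (s : Fin m → ℝ) : ℝ :=
  Real.log (V fun k => Real.exp (s k))

/-- A function on real vectors that is concave on every line is concave. -/
theorem concaveOn_univ_of_lines {E : Type*} [AddCommGroup E] [Module ℝ E] {f : E → ℝ}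
    (h : ∀ x z : E, ConcaveOn ℝ Set.univ fun t : ℝ => f (x + t • z)) :
    ConcaveOn ℝ Set.univ f := by
  refine ⟨convex_univ, fun x _ y _ a b ha hb hab => ?_⟩
  have h2 := (h x (y - x)).2 (Set.mem_univ (0 : ℝ)) (Set.mem_univ (1 : ℝ)) ha hb hab
  have e1 : x + (1 : ℝ) • (y - x) = y := by simp
  have e2 : x + (a • (0 : ℝ) + b • (1 : ℝ)) • (y - x) = a • x + b • y := by
    have ha' : a = 1 - b := by linarith
    subst ha'
    simp only [smul_eq_mul, mul_zero, mul_one, zero_add]
    module
  simp only at h2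
  rw [e2, e1, zero_smul, add_zero] at h2
  exact h2

/-- Log-concavity in exponential coordinates from a nonpositive formal second derivative. -/
theorem logConcave_of_form {m : ℕ} (V : (Fin m → ℝ) → ℝ) (G : (Fin m → ℝ) → Fin m → ℝ)
    (H : (Fin m → ℝ) → Fin m → Fin m → ℝ)
    (hpos : ∀ h : Fin m → ℝ, (∀ k, 0 < h k) → 0 < V h)
    (hV : ∀ (c : ℝ → Fin m → ℝ) (c' : Fin m → ℝ) (t : ℝ),
      (∀ k, HasDerivAt (fun r => c r k) (c' k) t) → (∀ k, 0 < c t k) →
      HasDerivAt (fun r => V (c r)) (∑ k, G (c t) k * c' k) t)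
    (hG : ∀ (c : ℝ → Fin m → ℝ) (c' : Fin m → ℝ) (t : ℝ) (k : Fin m),
      (∀ l, HasDerivAt (fun r => c r l) (c' l) t) → (∀ l, 0 < c t l) →
      HasDerivAt (fun r => G (c r) k) (∑ l, H (c t) k l * c' l) t)
    (hM : ∀ h : Fin m → ℝ, (∀ k, 0 < h k) → ∀ w : Fin m → ℝ,
      (∑ k, ∑ l, H h k l * w k * w l) + (∑ k, G h k * w k ^ 2 / h k)
        - (∑ k, G h k * w k) ^ 2 / V h ≤ 0) :
    ConcaveOn ℝ Set.univ (logPull V) := by
  apply concaveOn_univ_of_lines
  intro x z
  set c : ℝ → Fin m → ℝ := fun r k => Real.exp (x k + r * z k) with hcdef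
  have hcp : ∀ t k, 0 < c t k := fun t k => Real.exp_pos _
  have hc : ∀ t k, HasDerivAt (fun r => c r k) (c t k * z k) t := by
    intro t k
    exact (((hasDerivAt_id t).mul_const (z k)).const_add (x k)).exp.congr_deriv (by simp [c])
  have hfun : (fun t : ℝ => logPull V (x + t • z)) = fun t => Real.log (V (c t)) := by
    funext t
    simp [logPull, c]
  rw [hfun]
  set N : ℝ → ℝ := fun t => ∑ k, G (c t) k * (c t k * z k) with hN
  have hd : ∀ t, HasDerivAt (fun r => V (c r)) (N t) t :=
    fun t => hV c _ t (hc t) (hcp t)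
  have hphi : ∀ t, HasDerivAt (fun r => Real.log (V (c r))) (N t / V (c t)) t :=
    fun t => (hd t).log (hpos _ (hcp t)).ne'
  have hN' : ∀ t, HasDerivAt N (∑ k, ((∑ l, H (c t) k l * (c t l * z l)) * (c t k * z k)
      + G (c t) k * (c t k * z k * z k))) t := by
    intro t
    exact HasDerivAt.fun_sum fun k _ => (hG c _ t k (hc t) (hcp t)).mul ((hc t k).mul_const (z k))
  have hdphi : deriv (fun r => Real.log (V (c r))) = fun t => N t / V (c t) :=
    funext fun t => (hphi t).deriv
  apply concaveOn_univ_of_deriv2_nonpos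
  · exact fun t => (hphi t).differentiableAt
  · rw [hdphi]
    exact fun t => ((hN' t).div (hd t) (hpos _ (hcp t)).ne').differentiableAt
  · intro t
    have hVp := hpos _ (hcp t)
    simp only [Function.iterate_succ, Function.iterate_zero, Function.comp_apply, id_eq]
    rw [hdphi, ((hN' t).fun_div (hd t) hVp.ne').deriv]
    have key := hM _ (hcp t) fun k => c t k * z k
    have e1 : (∑ k, ((∑ l, H (c t) k l * (c t l * z l)) * (c t k * z k)
        + G (c t) k * (c t k * z k * z k)))
        = (∑ k, ∑ l, H (c t) k l * (c t k * z k) * (c t l * z l))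
          + ∑ k, G (c t) k * (c t k * z k) ^ 2 / c t k := by
      rw [← Finset.sum_add_distrib]
      refine Finset.sum_congr rfl fun k _ => ?_
      have hne := (hcp t k).ne'
      rw [Finset.sum_mul]
      congr 1
      · exact Finset.sum_congr rfl fun l _ => by ring
      · field_simp
    rw [e1]
    set A := (∑ k, ∑ l, H (c t) k l * (c t k * z k) * (c t l * z l))
      + ∑ k, G (c t) k * (c t k * z k) ^ 2 / c t k with hA
    have hkey : A - N t ^ 2 / V (c t) ≤ 0 := key
    have : (A * V (c t) - N t * N t) / V (c t) ^ 2 = (A - N t ^ 2 / V (c t)) / V (c t) := by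
      field_simp
    rw [this]
    exact div_nonpos_of_nonpos_of_nonneg hkey hVp.le

/-- A pointwise limit of concave functions is concave. -/
theorem concaveOn_univ_of_tendsto {E ι : Type*} [AddCommGroup E] [Module ℝ E]
    {L : Filter ι} [L.NeBot] {f : ι → E → ℝ} {g : E → ℝ}
    (hf : ∀ i, ConcaveOn ℝ Set.univ (f i)) (hlim : ∀ x, Tendsto (fun i => f i x) L (𝓝 (g x))) :
    ConcaveOn ℝ Set.univ g := by
  refine ⟨convex_univ, fun x _ y _ a b ha hb hab => ?_⟩
  exact le_of_tendsto_of_tendsto' (((hlim x).const_smul a).add ((hlim y).const_smul b))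
    (hlim (a • x + b • y)) fun i => (hf i).2 (Set.mem_univ x) (Set.mem_univ y) ha hb hab

/-- Log-concavity passes from `m+1` variables to `m` variables in the limit. -/
theorem logConcave_of_limit {m : ℕ} (V : (Fin (m + 1) → ℝ) → ℝ) (U : (Fin m → ℝ) → ℝ)
    (hV : ConcaveOn ℝ Set.univ (logPull V))
    (hVpos : ∀ h : Fin (m + 1) → ℝ, (∀ k, 0 < h k) → 0 < V h)
    (hUpos : ∀ h : Fin m → ℝ, (∀ k, 0 < h k) → 0 < U h)
    (hlim : ∀ h : Fin m → ℝ, (∀ k, 0 < h k) →
      Tendsto (fun e => V (Fin.snoc h e) / (2 * e)) (𝓝[>] (0 : ℝ)) (𝓝 (U h))) :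
    ConcaveOn ℝ Set.univ (logPull U) := by
  set f : ℝ → (Fin m → ℝ) → ℝ :=
    fun u s => logPull V (Fin.snoc s u) - u - Real.log 2 with hf
  have hfc : ∀ u, ConcaveOn ℝ Set.univ (f u) := by
    intro u
    refine ⟨convex_univ, fun x _ y _ a b ha hb hab => ?_⟩
    have h2 := hV.2 (Set.mem_univ (Fin.snoc x u : Fin (m + 1) → ℝ))
      (Set.mem_univ (Fin.snoc y u : Fin (m + 1) → ℝ)) ha hb hab
    have e : (a • (Fin.snoc x u : Fin (m + 1) → ℝ) + b • (Fin.snoc y u : Fin (m + 1) → ℝ))
        = Fin.snoc (a • x + b • y) u := by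
      funext i
      refine Fin.lastCases ?_ (fun j => ?_) i
      · simp [← add_mul, hab]
      · simp
    rw [e] at h2
    simp only [f, smul_eq_mul] at *
    have hb' : b = 1 - a := by linarith
    subst hb'
    nlinarith [h2]
  refine concaveOn_univ_of_tendsto (L := atBot) hfc fun s => ?_
  have hh : ∀ k, 0 < Real.exp (s k) := fun k => Real.exp_pos _
  have hexp : Tendsto Real.exp atBot (𝓝[>] (0 : ℝ)) :=
    tendsto_nhdsWithin_iff.2 ⟨Real.tendsto_exp_atBot, Eventually.of_forall fun u => Real.exp_pos u⟩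
  have hl := ((hlim _ hh).comp hexp).log (hUpos _ hh).ne'
  refine hl.congr fun u => ?_
  have he : (fun k => Real.exp ((Fin.snoc s u : Fin (m + 1) → ℝ) k))
      = Fin.snoc (fun k => Real.exp (s k)) (Real.exp u) := by
    funext i
    refine Fin.lastCases ?_ (fun j => ?_) i <;> simp
  have hv : 0 < V (Fin.snoc (fun k => Real.exp (s k)) (Real.exp u)) := by
    apply hVpos
    intro i
    refine Fin.lastCases ?_ (fun j => ?_) i <;> simp [Real.exp_pos]
  simp only [Function.comp_apply, f, logPull, he]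
  rw [Real.log_div hv.ne' (by positivity), Real.log_mul (by norm_num) (Real.exp_pos u).ne',
    Real.log_exp]
  ring

/-- Concavity of `log V(e^s)` as the multiplicative inequality. -/
theorem geomMean_mul_le {m : ℕ} (V : (Fin m → ℝ) → ℝ)
    (hpos : ∀ h : Fin m → ℝ, (∀ k, 0 < h k) → 0 < V h)
    (hV : ConcaveOn ℝ Set.univ (logPull V))
    {a b : Fin m → ℝ} (ha : ∀ k, 0 < a k) (hb : ∀ k, 0 < b k)
    {l : ℝ} (hl0 : 0 ≤ l) (hl1 : l ≤ 1) :
    V a ^ (1 - l) * V b ^ l ≤ V (fun k => a k ^ (1 - l) * b k ^ l) := by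
  have hm : ∀ k, 0 < a k ^ (1 - l) * b k ^ l :=
    fun k => mul_pos (Real.rpow_pos_of_pos (ha k) _) (Real.rpow_pos_of_pos (hb k) _)
  have h := hV.2 (Set.mem_univ fun k => Real.log (a k)) (Set.mem_univ fun k => Real.log (b k))
    (sub_nonneg.2 hl1) hl0 (by ring)
  have ea : (fun k => Real.exp (Real.log (a k))) = a := funext fun k => Real.exp_log (ha k)
  have eb : (fun k => Real.exp (Real.log (b k))) = b := funext fun k => Real.exp_log (hb k)
  have em : (fun k => Real.exp (((1 - l) • (fun j => Real.log (a j))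
      + l • (fun j => Real.log (b j))) k)) = fun k => a k ^ (1 - l) * b k ^ l := by
    funext k
    rw [Real.rpow_def_of_pos (ha k), Real.rpow_def_of_pos (hb k), ← Real.exp_add]
    simp [mul_comm]
  simp only [logPull, ea, eb, em, smul_eq_mul] at h
  rw [← Real.exp_log (hpos _ hm), Real.rpow_def_of_pos (hpos a ha),
    Real.rpow_def_of_pos (hpos b hb), ← Real.exp_add, Real.exp_le_exp]
  linarith

/-- Two-term Hölder inequality for weighted sums of geometric means. -/
theorem sum_geomMean_le {ι : Type*} [Fintype ι] (w a b : ι → ℝ)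
    (hw : ∀ i, 0 ≤ w i) (ha : ∀ i, 0 < a i) (hb : ∀ i, 0 < b i)
    {l : ℝ} (hl0 : 0 ≤ l) (hl1 : l ≤ 1) :
    ∑ i, w i * (a i ^ (1 - l) * b i ^ l)
      ≤ (∑ i, w i * a i) ^ (1 - l) * (∑ i, w i * b i) ^ l := by
  by_cases h0 : ∀ i, w i = 0
  · simp only [h0, zero_mul, Finset.sum_const_zero]
    positivity
  obtain ⟨j, hj⟩ := not_forall.1 h0
  have hjp : 0 < w j := lt_of_le_of_ne (hw j) (Ne.symm hj)
  set A := ∑ i, w i * a i with hA
  set B := ∑ i, w i * b i with hB
  have hAp : 0 < A := Finset.sum_pos' (fun i _ => mul_nonneg (hw i) (ha i).le)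
    ⟨j, Finset.mem_univ j, mul_pos hjp (ha j)⟩
  have hBp : 0 < B := Finset.sum_pos' (fun i _ => mul_nonneg (hw i) (hb i).le)
    ⟨j, Finset.mem_univ j, mul_pos hjp (hb j)⟩
  have hC : 0 < A ^ (1 - l) * B ^ l :=
    mul_pos (Real.rpow_pos_of_pos hAp _) (Real.rpow_pos_of_pos hBp _)
  have hle : ∀ i, w i * (a i ^ (1 - l) * b i ^ l)
      ≤ A ^ (1 - l) * B ^ l * ((1 - l) * (w i * a i) / A + l * (w i * b i) / B) := by
    intro i
    have h1 := Real.geom_mean_le_arith_mean2_weighted (sub_nonneg.2 hl1) hl0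
      (div_nonneg (ha i).le hAp.le) (div_nonneg (hb i).le hBp.le) (by ring)
    rw [Real.div_rpow (ha i).le hAp.le, Real.div_rpow (hb i).le hBp.le, div_mul_div_comm,
      div_le_iff₀ hC] at h1
    calc w i * (a i ^ (1 - l) * b i ^ l)
        ≤ w i * (((1 - l) * (a i / A) + l * (b i / B)) * (A ^ (1 - l) * B ^ l)) :=
          mul_le_mul_of_nonneg_left h1 (hw i)
      _ = _ := by ring
  refine (Finset.sum_le_sum fun i _ => hle i).trans (le_of_eq ?_)
  rw [← Finset.mul_sum, Finset.sum_add_distrib, ← Finset.sum_div, ← Finset.sum_div,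
    ← Finset.mul_sum, ← Finset.mul_sum, ← hA, ← hB]
  field_simp
  ring

end Vale.Agent.P227
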