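import Mathlib

/-!
# P227: the spectral step

For a positive weight vector `p`, a point `h > 0` and a symmetric matrix `H` with `H h = e p`, if no vector `z`
orthogonal to `p` satisfies `H z = r (p z / h)` with `-1 < r < e` along a connected family, then the bound
`z'Hz ≤ -T z` on `p⊥` propagates along the family.
-/

namespace Vale.Agent.P227

open Finset Filter Topology

variable {ι : Type*} [Fintype ι]

/-- The quadratic form of `H`. -/
def qA (H : ι → ι → ℝ) (z : ι → ℝ) : ℝ := ∑ i, ∑ j, z i * H i j * z j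

/-- The weighted norm `∑ p z² / h`. -/
noncomputable def qT (p h : ι → ℝ) (z : ι → ℝ) : ℝ := ∑ i, p i * z i ^ 2 / h i

/-- `H z`. -/
def hmv (H : ι → ι → ℝ) (z : ι → ℝ) (i : ι) : ℝ := ∑ j, H i j * z j

/-- `p · z`. -/
def dp (p z : ι → ℝ) : ℝ := ∑ i, p i * z i

/-- No eigenvector in `p⊥` with eigenvalue in `(-1, e)`. -/
def Gap (H : ι → ι → ℝ) (p h : ι → ℝ) (e : ℝ) : Prop :=
  ∀ (z : ι → ℝ) (r : ℝ), -1 < r → r < e → dp p z = 0 →
    (∀ i, hmv H z i = r * (p i * z i / h i)) → z = 0

/-- The bound on `p⊥`. -/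
def Stable (H : ι → ι → ℝ) (p h : ι → ℝ) : Prop := ∀ z, dp p z = 0 → qA H z ≤ -qT p h z

theorem qA_add_smul (H : ι → ι → ℝ) (hs : ∀ i j, H i j = H j i) (z y : ι → ℝ) (c : ℝ) :
    qA H (fun i => z i + c * y i) = qA H z + 2 * c * dp (hmv H z) y + c ^ 2 * qA H y := by
  have e : ∑ i, ∑ j, z i * H i j * y j = ∑ i, ∑ j, y i * H i j * z j := by
    rw [sum_comm]
    exact sum_congr rfl fun i _ => sum_congr rfl fun j _ => by rw [hs j i]; ring
  have e2 : dp (hmv H z) y = ∑ i, ∑ j, y i * H i j * z j := by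
    simp only [dp, hmv, sum_mul]
    exact sum_congr rfl fun i _ => sum_congr rfl fun j _ => by ring
  rw [e2]
  simp only [qA]
  have : ∀ i j, (z i + c * y i) * H i j * (z j + c * y j) = z i * H i j * z j +
      c * (z i * H i j * y j) + c * (y i * H i j * z j) + c ^ 2 * (y i * H i j * y j) :=
    fun i j => by ring
  simp only [this, sum_add_distrib, ← mul_sum, e]
  ring

theorem qT_add_smul (p h z y : ι → ℝ) (c : ℝ) :
    qT p h (fun i => z i + c * y i) =
      qT p h z + 2 * c * (∑ i, p i * z i / h i * y i) + c ^ 2 * qT p h y := by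
  simp only [qT, mul_sum, ← sum_add_distrib]
  exact sum_congr rfl fun i _ => by ring

theorem dp_add_smul (p z y : ι → ℝ) (c : ℝ) :
    dp p (fun i => z i + c * y i) = dp p z + c * dp p y := by
  simp only [dp, mul_sum, ← sum_add_distrib]
  exact sum_congr rfl fun i _ => by ring

theorem qT_eq_zero {p h z : ι → ℝ} (hp : ∀ i, 0 < p i) (hh : ∀ i, 0 < h i)
    (h0 : qT p h z ≤ 0) : z = 0 := by
  have hnn : ∀ i ∈ univ, 0 ≤ p i * z i ^ 2 / h i := fun i _ =>
    div_nonneg (mul_nonneg (hp i).le (sq_nonneg _)) (hh i).le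
  funext i
  have := (sum_eq_zero_iff_of_nonneg hnn).1 (le_antisymm h0 (sum_nonneg hnn)) i (mem_univ i)
  simpa [(hp i).ne', (hh i).ne'] using this

/-- The test form. -/
noncomputable def qF (H : ι → ι → ℝ) (p h : ι → ℝ) (r K : ℝ) (z : ι → ℝ) : ℝ :=
  qA H z - r * qT p h z - K * dp p z ^ 2 / dp p h

theorem dp_h_pos [Nonempty ι] {p h : ι → ℝ} (hp : ∀ i, 0 < p i) (hh : ∀ i, 0 < h i) :
    0 < dp p h := sum_pos (fun i _ => mul_pos (hp i) (hh i)) univ_nonempty

/-- A vanishing maximum of the test form gives an eigenvector. -/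
theorem qF_zero [Nonempty ι] {H : ι → ι → ℝ} {p h : ι → ℝ} {e g' r K : ℝ}
    (hs : ∀ i j, H i j = H j i) (hp : ∀ i, 0 < p i) (hh : ∀ i, 0 < h i)
    (hHh : ∀ i, hmv H h i = e * p i) (hgap : Gap H p h g') (hr : -1 < r) (hre : r < g')
    (hK : e - r < K) {z : ι → ℝ} (hle : ∀ y, qF H p h r K y ≤ 0) (hz : qF H p h r K z = 0) :
    z = 0 := by
  have hd := dp_h_pos hp hh
  set g : ι → ℝ := fun i => hmv H z i - r * (p i * z i / h i) - K * dp p z / dp p h * p i with hg
  have key : ∀ (y : ι → ℝ) (c : ℝ),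
      qF H p h r K (fun i => z i + c * y i) = 2 * c * dp g y + c ^ 2 * qF H p h r K y := by
    intro y c
    have e3 : dp g y = dp (hmv H z) y - r * (∑ i, p i * z i / h i * y i) -
        K * dp p z / dp p h * dp p y := by
      simp only [hg, dp, mul_sum, ← sum_sub_distrib]
      exact sum_congr rfl fun i _ => by ring
    rw [e3]
    simp only [qF, qA_add_smul H hs, qT_add_smul, dp_add_smul] at hz ⊢
    field_simp at hz ⊢
    linear_combination hz
  have hg0 : ∀ y, dp g y = 0 := by
    intro y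
    by_contra hne
    set b := dp g y
    set d := qF H p h r K y with hd'
    have hd0 : d ≤ 0 := hle y
    have h1 : 0 < 1 - d := by linarith
    have := hle (fun i => z i + b / (1 - d) * y i)
    rw [key, ← hd'] at this
    have e4 : 2 * (b / (1 - d)) * b + (b / (1 - d)) ^ 2 * d = b ^ 2 * (2 - d) / (1 - d) ^ 2 := by
      field_simp
      ring
    rw [e4] at this
    have : 0 < b ^ 2 * (2 - d) / (1 - d) ^ 2 :=
      div_pos (mul_pos (by positivity) (by linarith)) (by positivity)
    linarith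
  have hgi : ∀ i, g i = 0 := fun i => by
    have := hg0 g
    simp only [dp] at this
    simpa using (sum_eq_zero_iff_of_nonneg fun j _ => mul_self_nonneg (g j)).1 this i (mem_univ i)
  have hdz : dp p z = 0 := by
    have := hg0 h
    have e1 : dp (hmv H z) h = e * dp p z := by
      simp only [dp, hmv, mul_sum, sum_mul]
      rw [sum_comm]
      refine sum_congr rfl fun j _ => ?_
      have hj := hHh j
      simp only [hmv] at hj
      rw [show ∑ i, H i j * z j * h i = z j * ∑ i, H j i * h i by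
        rw [mul_sum]; exact sum_congr rfl fun i _ => by rw [hs i j]; ring, hj]
      ring
    have e2 : dp g h = dp (hmv H z) h - r * dp p z - K * dp p z := by
      simp only [hg, dp, mul_sum, ← sum_sub_distrib, sub_mul]
      have : K * dp p z / dp p h * dp p h = K * dp p z := div_mul_cancel₀ _ hd.ne'
      rw [← sub_eq_zero]
      simp only [dp] at this ⊢
      simp only [sum_sub_distrib]
      have e5 : ∀ i, r * (p i * z i / h i) * h i = r * (p i * z i) := fun i => by
        field_simp [(hh i).ne']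
      simp only [e5, mul_assoc, ← mul_sum]
      linarith
    rw [e2, e1] at this
    rcases mul_eq_zero.1 (show (e - r - K) * dp p z = 0 by linarith) with h' | h'
    · linarith
    · exact h'
  refine hgap z r hr hre hdz fun i => ?_
  have := hgi i
  simp only [hg, hdz, mul_zero, zero_div, zero_mul, sub_zero, sub_eq_zero] at this
  exact this

theorem qF_neg_of_stable [Nonempty ι] {H : ι → ι → ℝ} {p h : ι → ℝ} {e r K : ℝ}
    (hs : ∀ i j, H i j = H j i) (hp : ∀ i, 0 < p i) (hh : ∀ i, 0 < h i)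
    (hHh : ∀ i, hmv H h i = e * p i) (hst : Stable H p h) (hr : -1 < r) (hK : e - r < K)
    {z : ι → ℝ} (hz : z ≠ 0) : qF H p h r K z < 0 := by
  have hd := dp_h_pos hp hh
  set c := dp p z / dp p h with hc
  set w : ι → ℝ := fun i => z i + -c * h i with hw
  have hwp : dp p w = 0 := by
    rw [hw, dp_add_smul, hc]
    field_simp
    ring
  have ez : z = fun i => w i + c * h i := funext fun i => by simp [hw]
  have hA : qA H h = e * dp p h := by
    simp only [qA, dp, mul_sum]
    refine sum_congr rfl fun i _ => ?_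
    have hi := hHh i
    simp only [hmv] at hi
    simp only [mul_assoc, ← mul_sum, hi]
    ring
  have hT : qT p h h = dp p h :=
    sum_congr rfl fun i _ => by field_simp [(hh i).ne']
  have h1 : dp (hmv H w) h = 0 := by
    have : dp (hmv H w) h = e * dp p w := by
      simp only [dp, hmv, sum_mul, mul_sum]
      rw [sum_comm]
      refine sum_congr rfl fun j _ => ?_
      have hj := hHh j
      simp only [hmv] at hj
      rw [show ∑ i, H i j * w j * h i = w j * ∑ i, H j i * h i by
        rw [mul_sum]; exact sum_congr rfl fun i _ => by rw [hs i j]; ring, hj]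
      ring
    rw [this, hwp, mul_zero]
  have h2 : ∑ i, p i * w i / h i * h i = 0 := by
    rw [← hwp]
    exact sum_congr rfl fun i _ => div_mul_cancel₀ _ (hh i).ne'
  have eF : qF H p h r K z = qA H w - r * qT p h w + c ^ 2 * dp p h * (e - r - K) := by
    rw [ez, qF, qA_add_smul H hs, qT_add_smul, dp_add_smul, h1, h2, hA, hT, hwp]
    field_simp
    ring
  rw [eF]
  have hAw := hst w hwp
  have hsq : c ^ 2 * dp p h * (e - r - K) ≤ 0 :=
    mul_nonpos_of_nonneg_of_nonpos (by positivity) (by linarith)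
  by_cases hw0 : w = 0
  · have hc0 : c ≠ 0 := fun h0 => hz (by rw [ez, hw0, h0]; funext i; simp)
    have : c ^ 2 * dp p h * (e - r - K) < 0 :=
      mul_neg_of_pos_of_neg (by positivity) (by linarith)
    rw [hw0] at hAw ⊢
    simp [qA, qT] at *
    linarith
  · have : 0 < qT p h w := not_le.1 fun h0 => hw0 (qT_eq_zero hp hh h0)
    nlinarith

/-- The bound propagates along a continuous family without eigenvalues in `(-1, e)`. -/
theorem stable_of_path [Nonempty ι] {e g' : ℝ} (he : -1 < g') {H : ℝ → ι → ι → ℝ}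
    {p h : ℝ → ι → ℝ} (hH : ∀ i j, ContinuousOn (fun s => H s i j) (Set.Icc 0 1))
    (hpc : ∀ i, ContinuousOn (fun s => p s i) (Set.Icc 0 1))
    (hhc : ∀ i, ContinuousOn (fun s => h s i) (Set.Icc 0 1))
    (hs : ∀ s ∈ Set.Icc (0:ℝ) 1, ∀ i j, H s i j = H s j i)
    (hp : ∀ s ∈ Set.Icc (0:ℝ) 1, ∀ i, 0 < p s i)
    (hh : ∀ s ∈ Set.Icc (0:ℝ) 1, ∀ i, 0 < h s i)
    (hHh : ∀ s ∈ Set.Icc (0:ℝ) 1, ∀ i, hmv (H s) (h s) i = e * p s i)
    (hgap : ∀ s ∈ Set.Icc (0:ℝ) 1, Gap (H s) (p s) (h s) g')
    (h0 : Stable (H 0) (p 0) (h 0)) : Stable (H 1) (p 1) (h 1) := by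
  classical
  intro z hz
  by_contra hneg
  push Not at hneg
  set T := qT (p 1) (h 1) z with hT
  have hz0 : z ≠ 0 := by
    rintro rfl
    simp [hT, qA, qT] at hneg
  have hT0 : 0 < T := not_le.1 fun h' =>
    hz0 (qT_eq_zero (hp 1 (by norm_num)) (hh 1 (by norm_num)) h')
  set a := qA (H 1) z / T with ha
  have ha1 : -1 < a := by rw [ha, lt_div_iff₀ hT0]; linarith
  obtain ⟨r, hr, hr'⟩ := exists_between (show -1 < min a g' from lt_min ha1 he)
  set K := e + 2 with hK
  have hKr : e - r < K := by linarith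
  let S : Set (ι → ℝ) := Metric.sphere 0 1
  have hS : IsCompact S := isCompact_sphere _ _
  have hne : S.Nonempty := by
    refine ⟨fun _ => (1:ℝ), ?_⟩
    simp [S, pi_norm_const]
  set D : Set (ℝ × (ι → ℝ)) := Set.Icc 0 1 ×ˢ Set.univ with hD
  have f1 : ∀ {f : ℝ → ℝ}, ContinuousOn f (Set.Icc (0:ℝ) 1) →
      ContinuousOn (fun q : ℝ × (ι → ℝ) => f q.1) D := fun hf =>
    hf.comp continuousOn_fst fun q hq => hq.1
  have f2 : ∀ i, ContinuousOn (fun q : ℝ × (ι → ℝ) => q.2 i) D := fun i =>
    ((continuous_apply i).comp continuous_snd).continuousOn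
  have cA : ContinuousOn (fun q : ℝ × (ι → ℝ) => qA (H q.1) q.2) D := by
    unfold qA
    exact continuousOn_finsetSum _ fun i _ => continuousOn_finsetSum _ fun j _ =>
      ((f2 i).mul (f1 (hH i j))).mul (f2 j)
  have cT : ContinuousOn (fun q : ℝ × (ι → ℝ) => qT (p q.1) (h q.1) q.2) D := by
    unfold qT
    exact continuousOn_finsetSum _ fun i _ => ((f1 (hpc i)).mul ((f2 i).pow 2)).div (f1 (hhc i))
      fun q hq => (hh q.1 hq.1 i).ne'
  have cP : ContinuousOn (fun q : ℝ × (ι → ℝ) => dp (p q.1) q.2) D := by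
    unfold dp
    exact continuousOn_finsetSum _ fun i _ => (f1 (hpc i)).mul (f2 i)
  have cD : ContinuousOn (fun q : ℝ × (ι → ℝ) => dp (p q.1) (h q.1)) D := by
    unfold dp
    exact continuousOn_finsetSum _ fun i _ => (f1 (hpc i)).mul (f1 (hhc i))
  have hcont : ContinuousOn (fun q : ℝ × (ι → ℝ) => qF (H q.1) (p q.1) (h q.1) r K q.2) D := by
    unfold qF
    exact (cA.sub (continuousOn_const.mul cT)).sub ((continuousOn_const.mul (cP.pow 2)).div cD
      fun q hq => (dp_h_pos (hp q.1 hq.1) (hh q.1 hq.1)).ne')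
  set G : ℝ → ℝ := fun s => sSup ((fun z => qF (H s) (p s) (h s) r K z) '' S) with hG
  have hmax : ∀ s ∈ Set.Icc (0:ℝ) 1, ∃ z₀ ∈ S, G s = qF (H s) (p s) (h s) r K z₀ ∧
      ∀ y ∈ S, qF (H s) (p s) (h s) r K y ≤ G s := by
    intro s hs'
    have hc : ContinuousOn (fun z => qF (H s) (p s) (h s) r K z) S := by
      apply Continuous.continuousOn
      unfold qF qA qT dp
      fun_prop
    obtain ⟨z₀, hz₀, he₀, hle⟩ := hS.exists_sSup_image_eq_and_ge hne hc
    exact ⟨z₀, hz₀, he₀, fun y hy => (hle y hy).trans_eq he₀.symm⟩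
  have hGc : ContinuousOn G (Set.Icc 0 1) := by
    rw [continuousOn_iff_continuous_domRestrict]
    let f : Set.Icc (0:ℝ) 1 → (ι → ℝ) → ℝ := fun s y =>
      qF (H (s : ℝ)) (p (s : ℝ)) (h (s : ℝ)) r K y
    refine hS.continuous_sSup (f := f) ?_
    have hc := ContinuousOn.comp_continuous hcont
      (f := fun q : Set.Icc (0:ℝ) 1 × (ι → ℝ) => ((q.1 : ℝ), q.2))
      ((continuous_subtype_val.comp continuous_fst).prodMk continuous_snd)
      fun q => ⟨q.1.2, Set.mem_univ _⟩
    exact hc
  have hG0 : G 0 < 0 := by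
    obtain ⟨z₀, hz₀, he₀, -⟩ := hmax 0 (by norm_num)
    rw [he₀]
    refine qF_neg_of_stable (hs 0 (by norm_num)) (hp 0 (by norm_num)) (hh 0 (by norm_num))
      (hHh 0 (by norm_num)) h0 hr hKr ?_
    rintro rfl
    simp [S] at hz₀
  have hG1 : 0 < G 1 := by
    have hnz : 0 < ‖z‖ := norm_pos_iff.2 hz0
    obtain ⟨-, -, -, hle⟩ := hmax 1 (by norm_num)
    refine lt_of_lt_of_le ?_ (hle (‖z‖⁻¹ • z) (by simp [S, norm_smul, hnz.ne']))
    have e1 : qF (H 1) (p 1) (h 1) r K (‖z‖⁻¹ • z) =
        ‖z‖⁻¹ ^ 2 * qF (H 1) (p 1) (h 1) r K z := by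
      simp only [qF, qA, qT, dp, Pi.smul_apply, smul_eq_mul, mul_sum, mul_sub, div_eq_mul_inv,
        mul_pow]
      congr 1
      · congr 1
        · exact sum_congr rfl fun i _ => sum_congr rfl fun j _ => by ring
        · exact sum_congr rfl fun i _ => by ring
      · rw [show ∀ a : ℝ, ∑ x, p 1 x * (a * z x) = a * ∑ x, p 1 x * z x from fun a => by
          rw [mul_sum]; exact sum_congr rfl fun i _ => by ring]
        ring
    rw [e1]
    refine mul_pos (by positivity) ?_
    simp only [qF, hz, ← hT]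
    have : r * T < qA (H 1) z := (lt_div_iff₀ hT0).1 (lt_of_lt_of_le hr' (min_le_left _ _))
    simpa using this
  obtain ⟨s, hs', hGs⟩ := intermediate_value_Icc zero_le_one hGc ⟨hG0.le, hG1.le⟩
  obtain ⟨z₀, hz₀, he₀, hle⟩ := hmax s hs'
  have hall : ∀ y, qF (H s) (p s) (h s) r K y ≤ 0 := by
    intro y
    rcases eq_or_ne y 0 with rfl | hy
    · simp [qF, qA, qT, dp]
    · have hn : 0 < ‖y‖ := norm_pos_iff.2 hy
      have h1 := hle (‖y‖⁻¹ • y) (by simp [S, norm_smul, hn.ne'])
      rw [hGs] at h1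
      have e1 : qF (H s) (p s) (h s) r K (‖y‖⁻¹ • y) =
          ‖y‖⁻¹ ^ 2 * qF (H s) (p s) (h s) r K y := by
        simp only [qF, qA, qT, dp, Pi.smul_apply, smul_eq_mul, mul_sum, mul_sub, div_eq_mul_inv,
          mul_pow]
        congr 1
        · congr 1
          · exact sum_congr rfl fun i _ => sum_congr rfl fun j _ => by ring
          · exact sum_congr rfl fun i _ => by ring
        · rw [show ∀ a : ℝ, ∑ x, p s x * (a * y x) = a * ∑ x, p s x * y x from fun a => by
            rw [mul_sum]; exact sum_congr rfl fun i _ => by ring]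
          ring
      rw [e1] at h1
      exact nonpos_of_mul_nonpos_right h1 (by positivity)
  have hz00 := qF_zero (hs s hs') (hp s hs') (hh s hs') (hHh s hs') (hgap s hs') hr
    (hr'.trans_le (min_le_right _ _)) hKr hall (he₀.symm.trans hGs)
  simp [S, hz00] at hz₀

end Vale.Agent.P227
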